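import Claimed.Agent.R256.Nm.Base
import Claimed.Agent.R256.Nm.Pred.Fam

/-!
# Row 256, unit NM, sub-block NM-SIDE, file 3: THE MARKS (xi) IN THE FRAME OF THE SIDE      (helper51; prefix `nm_mk_`; 04-canonical-names.tex l.617-646)

EXIT `nm_mk_main` (= E2(d), `nm_gr_mark` of `Nm/Grid.lean` in the form `3 ≤ r.B`): on charged rows the stored marks are, up to `δ^Rm`, the exact normalised marks in the frame `(t_a, R_a, k_a)` (linear branch: `L`), which is a function of the side;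
the exact marks are bounded by `3`.      `k_a = 0` unless the cut is `slope` (`c_2 > 1`); then `k_a = [K_1]_{b(a)-a}` is NOT small: only `|k_a| ≤ s^(-(c_2+2))` (`cmpB` at the gate `1`).
PAPER-FREE.   PLAN.
* `nmFrT`, `nmFrR`, `nmFrK` = decoding of the entries `t_a`, `R_a` / `L`, `k_a` of a value of the side (`nmVal` of `Geo/Cell.lean`); `nm_mk_frame`: on the side of `ω` they are `ta`, `Ra` / `nmRep (b1 a) Lraw`, `ka` of `D.raw` (unfold; `nm_rep_val`).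
* `nm_mk_bdd` (one `NmRaw`): `|Te - t_a| ≤ 2 s^a` ⇒ `|θ| ≤ 2`, `|r| ≤ 3`, `|𝔨| ≤ 1`.   slope: `be - R_a - (Te - t_a) k_a = [be + (t_a - Te) K - R_a] + (Te - t_a)(K - k_a)`, `nm_rep_abs`, `s^a s^(b - a) = s^b`.   const: `be - R_a`.   linear: `nm_rep_abs`.
* `nm_mk_store`: `|x - trep δ Rm x| ≤ δ^Rm` (as `dc_cn_trep_abs` of R255/Cl/Dich/Canon; reprove in 10 lines).
* `nm_mk_time`: `De = 1`: `Te = T_1`, `nm_rep_abs`.   `De < 1` (classical): `clPath` gives an ancestor at `j = D.gt De < 1`, `base`: `T_j ≤ T_1`, `T_1 + ℓ_1 ≤ T_j + ℓ_j`, `ℓ_j ≤ s^(j - t) ≤ s^a`.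
* `nm_mk_K`: `cmpB` at `i = 1`: `s |K_1| ≤ s^(-c_2 - t)`; `|k_a| ≤ |K_1| + s^(b a - a)`, `b a - a ≥ -c_2`.
* `nm_mk_main`: `t0 = min {1/4, (De - a)/2}` (`nm_gt_near`, `nm_gt_mem`); `ta = nmFrT`, `Ra = nmFrR`, `ka = if cut = slope then nmFrK else 0`; `cut = none ⇒ tp = plin ⇒ lin = true` (`Fam`, `brq`); `cut = slope ⇒ ds = nmDsEq π`, `1 < c_2` (`Fam`).
-/

set_option autoImplicit false

namespace Claimed.Agent.R256

open Claimed.Agent.R255
open Classical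

noncomputable section

/-- `t_a` read from a value of the side -/
def nmFrT (s a : ℝ) {I : Type} (x : NmZv I) : ℝ := nmVal s a x.2.1.2.2

/-- `R_a` (quadratic branch), `L` (linear branch) read from a value of the side -/
def nmFrR (s : ℝ) (π : SfPar) (q : NmQ) (lin : Bool) (a : ℝ) {I : Type} (x : NmZv I) : ℝ :=
  if lin then nmVal s (π.b1 a) x.2.2.2.2 else nmVal s (q.ds.b a) x.2.2.1

/-- `k_a` read from a value of the side (truncated: values which do not occur are read as `0`) -/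
def nmFrK (s : ℝ) (π : SfPar) (q : NmQ) (a : ℝ) {I : Type} (x : NmZv I) : ℝ :=
  if |nmVal s (q.ds.b a - a) x.2.2.2.1| ≤ s ^ (-(π.c2 + 2)) then nmVal s (q.ds.b a - a) x.2.2.2.1 else 0

theorem nm_mk_frame (D : SfDoc) (π : SfPar) (q : NmQ) (σ : NmSd) (a : ℝ) (ω : D.Row 1) :
    nmFrT D.s a (D.side π q σ a ω) = (D.raw π q.ds ω).ta D.s a ∧
    (σ.lin = false → nmFrR D.s π q σ.lin a (D.side π q σ a ω) = (D.raw π q.ds ω).Ra D.s q a) ∧
    (σ.lin = true → nmFrR D.s π q σ.lin a (D.side π q σ a ω) = nmRep D.s (π.b1 a) ((D.raw π q.ds ω).Lraw D.s q a)) ∧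
    (|(D.raw π q.ds ω).ka D.s q a| ≤ D.s ^ (-(π.c2 + 2)) → nmFrK D.s π q a (D.side π q σ a ω) = (D.raw π q.ds ω).ka D.s q a) := by
  refine ⟨rfl, fun h => ?_, fun h => ?_, fun h => ?_⟩
  · unfold nmFrR
    rw [h]
    rfl
  · unfold nmFrR SfDoc.side
    rw [h]
    rfl
  · unfold nmFrK
    have e : nmVal D.s (q.ds.b a - a) (D.side π q σ a ω).2.2.2.1 = (D.raw π q.ds ω).ka D.s q a := rfl
    rw [e, if_pos h]

theorem nm_mk_frK (s : ℝ) (π : SfPar) (q : NmQ) (a : ℝ) {I : Type} (hs : 0 < s) (x : NmZv I) : |nmFrK s π q a x| ≤ s ^ (-(π.c2 + 2)) := by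
  unfold nmFrK
  split_ifs with h
  · exact h
  · rw [abs_zero]
    exact (Real.rpow_pos_of_pos hs _).le

/-- the exact marks are bounded -/
theorem nm_mk_bdd {s : ℝ} (h0 : 0 < s) (h1 : s < 1) (x : NmRaw) (π : SfPar) (q : NmQ) (a : ℝ) (quad : Bool) (hc : quad = true → q.ds.cut ≠ NmCut.none)
    (ht : |x.Te - x.ta s a| ≤ 2 * s ^ a) :
    |(x.mark s π q a quad).th| ≤ 2 ∧ |(x.mark s π q a quad).r| ≤ 3 ∧ |(x.mark s π q a quad).k| ≤ 1 := by
  have hsa : 0 < s ^ a := Real.rpow_pos_of_pos h0 _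
  have hsb : 0 < s ^ (q.ds.b a) := Real.rpow_pos_of_pos h0 _
  have hk : |x.kraw q - x.ka s q a| ≤ s ^ (q.ds.b a - a) := nm_rep_abs h0 h1 _ _
  have hR : |x.Rraw s q a - x.Ra s q a| ≤ s ^ (q.ds.b a) := nm_rep_abs h0 h1 _ _
  refine ⟨?_, ?_, ?_⟩
  · show |(x.Te - x.ta s a) / s ^ a| ≤ 2
    rw [abs_div, abs_of_pos hsa, div_le_iff₀ hsa]
    exact ht
  · cases quad with
    | false =>
      show |(x.Lraw s q a - nmRep s (π.b1 a) (x.Lraw s q a)) / s ^ (π.b1 a)| ≤ 3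
      have hs1 : 0 < s ^ (π.b1 a) := Real.rpow_pos_of_pos h0 _
      rw [abs_div, abs_of_pos hs1, div_le_iff₀ hs1]
      have := nm_rep_abs h0 h1 (π.b1 a) (x.Lraw s q a)
      linarith
    | true =>
      show |(x.be - (x.Ra s q a + (x.Te - x.ta s a) * x.ka s q a)) / s ^ (q.ds.b a)| ≤ 3
      rw [abs_div, abs_of_pos hsb, div_le_iff₀ hsb]
      have hprod : s ^ a * s ^ (q.ds.b a - a) = s ^ (q.ds.b a) := by
        rw [← Real.rpow_add h0]
        congr 1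
        ring
      have key : x.be - (x.Ra s q a + (x.Te - x.ta s a) * x.ka s q a)
          = (x.Rraw s q a - x.Ra s q a) + (x.Te - x.ta s a) * (x.kraw q - x.ka s q a) := by
        unfold NmRaw.Rraw NmRaw.kraw at *
        cases hcut : q.ds.cut with
        | slope => simp only []; ring
        | const =>
          have hka : x.ka s q a = 0 := by
            unfold NmRaw.ka NmRaw.kraw
            rw [hcut]
            exact nm_rep_zero _ _
          simp only [hka]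
          ring
        | none => exact absurd hcut (hc rfl)
      rw [key]
      calc |(x.Rraw s q a - x.Ra s q a) + (x.Te - x.ta s a) * (x.kraw q - x.ka s q a)|
          ≤ |x.Rraw s q a - x.Ra s q a| + |x.Te - x.ta s a| * |x.kraw q - x.ka s q a| := by
            rw [← abs_mul]
            exact abs_add_le _ _
        _ ≤ s ^ (q.ds.b a) + (2 * s ^ a) * s ^ (q.ds.b a - a) := by
            gcongr
        _ = 3 * s ^ (q.ds.b a) := by
            rw [mul_assoc, hprod]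
            ring
  · show |(x.kraw q - x.ka s q a) * s ^ (a - q.ds.b a)| ≤ 1
    have hs2 : 0 < s ^ (a - q.ds.b a) := Real.rpow_pos_of_pos h0 _
    rw [abs_mul, abs_of_pos hs2]
    calc |x.kraw q - x.ka s q a| * s ^ (a - q.ds.b a) ≤ s ^ (q.ds.b a - a) * s ^ (a - q.ds.b a) := by gcongr
      _ = 1 := by
          rw [← Real.rpow_add h0]
          have : q.ds.b a - a + (a - q.ds.b a) = 0 := by ring
          rw [this, Real.rpow_zero]

theorem nm_mk_trep {δ : ℝ} (h0 : 0 < δ) (d c : ℝ) : |trep δ d c - c| ≤ δ ^ d := by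
  have hp : (0 : ℝ) < 2 ^ (tlev δ d) := by positivity
  have h2 : trep δ d c ≤ c := by
    unfold trep tcell
    rw [div_le_iff₀ hp]
    exact Int.floor_le _
  have h3 : c < trep δ d c + (2 ^ (tlev δ d))⁻¹ := by
    unfold trep tcell
    rw [div_eq_mul_inv, ← add_one_mul, ← div_eq_mul_inv, lt_div_iff₀ hp]
    exact Int.lt_floor_add_one _
  have h4 : ((2 : ℝ) ^ (tlev δ d))⁻¹ ≤ δ ^ d := by
    rw [nm_aux_pow h0, ← Real.rpow_natCast]
    apply inv_anti₀ (by positivity)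
    exact Real.rpow_le_rpow_of_exponent_le (by norm_num) (Nat.le_ceil _)
  rw [abs_le]
  constructor <;> linarith

/-- the stored marks -/
theorem nm_mk_store {δ Rm B : ℝ} (h0 : 0 < δ) (h1 : δ < 1) (μ : ItMk) (h : |μ.th| ≤ B ∧ |μ.r| ≤ B ∧ |μ.k| ≤ B) :
    |(nmStore δ Rm B μ).th - μ.th| ≤ δ ^ Rm ∧ |(nmStore δ Rm B μ).r - μ.r| ≤ δ ^ Rm ∧ |(nmStore δ Rm B μ).k - μ.k| ≤ δ ^ Rm := by
  unfold nmStore
  rw [if_pos h]
  exact ⟨nm_mk_trep h0 _ _, nm_mk_trep h0 _ _, nm_mk_trep h0 _ _⟩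

/-- the time of the endpoint label in the frame of the root -/
theorem nm_mk_time {D : SfDoc} {π : SfPar} {C0 t : ℝ} (hD : D.Core π C0 t) (ds : NmDs) (hE : D.EndOk π ds.De) (hG : D.gt ds.De ∈ D.G) {a : ℝ}
    (ha : a ≤ D.gt ds.De - t) (ω : D.Row 1) (hω : (D.P 1).p ω ≠ 0) : |(D.raw π ds ω).Te - (D.raw π ds ω).ta D.s a| ≤ 2 * D.s ^ a := by
  have hs := hD.hs
  have hsa : 0 < D.s ^ a := Real.rpow_pos_of_pos hs.1 _
  have h1 : |D.T 1 ω - nmRep D.s a (D.T 1 ω)| ≤ D.s ^ a := nm_rep_abs hs.1 hs.2 _ _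
  show |(D.labAt ds.De ω).T - nmRep D.s a (D.T 1 ω)| ≤ 2 * D.s ^ a
  rcases hE with hE | ⟨hne, hlt, hcl⟩
  · rw [hE, nm_labAt_one]
    show |D.T 1 ω - nmRep D.s a (D.T 1 ω)| ≤ _
    linarith
  · have hpos : 0 < (D.P 1).p ω := lt_of_le_of_ne ((D.P 1).nonneg ω) (Ne.symm hω)
    obtain ⟨ρ, hρ, -⟩ := hD.clPath hcl _ hG 1 hD.gate.1 hlt ω hpos
    rw [nm_labAt_eq hD hcl hne hlt hρ]
    obtain ⟨b1, b2, -, -⟩ := hD.base _ hG 1 hD.gate.1 hlt ρ ω hρ
    rw [hD.hlen.1] at b2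
    have h2 : D.len (D.gt ds.De) ≤ D.s ^ a := ((hD.hlen.2 _ hG).2).trans (nm_pw hs ha)
    show |D.T (D.gt ds.De) ρ - nmRep D.s a (D.T 1 ω)| ≤ _
    have h3 := abs_le.1 h1
    rw [abs_le]
    constructor <;> linarith [hs.1]

/-- the slope of the frame is polynomial -/
theorem nm_mk_K {D : SfDoc} {π : SfPar} {C0 τ κ0 t : ℝ} (hD : D.Ok π C0 τ κ0 t) (ht : 0 < t ∧ t ≤ 1 / 2) (hs : D.s ≤ 1 / 4) (q : NmQ) (hds : q.ds = nmDsEq π)
    (hc : 1 < π.c2) {a : ℝ} (ha : 0 ≤ a ∧ a ≤ 1) (ω : D.Row 1) : |(D.raw π q.ds ω).ka D.s q a| ≤ D.s ^ (-(π.c2 + 2)) := by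
  have hs0 := hD.core.hs
  have hcut : q.ds.cut = NmCut.slope := by
    rw [hds]
    simp [nmDsEq, hc]
  have hkb : D.kbar π q.ds ω = 0 := by
    unfold SfDoc.kbar
    rw [hds]
    simp [nmDsEq]
  have hDe : q.ds.De = 1 := by
    rw [hds]
    rfl
  have hkraw : (D.raw π q.ds ω).kraw q = (D.lab 1 ω).K := by
    unfold NmRaw.kraw
    rw [hcut]
    show (D.labAt q.ds.De ω).K - D.kbar π q.ds ω = _
    rw [hkb, hDe, nm_labAt_one, sub_zero]
  have hb : q.ds.b a - a = π.c2 * (a - 1) - a := by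
    rw [hds]
    simp [nmDsEq, NmDs.b]
  have h1 : |(D.raw π q.ds ω).kraw q - (D.raw π q.ds ω).ka D.s q a| ≤ D.s ^ (q.ds.b a - a) := nm_rep_abs hs0.1 hs0.2 _ _
  rw [hkraw] at h1
  have h2 : D.s ^ (q.ds.b a - a) ≤ D.s ^ (-π.c2 - 3 / 2) := by
    apply nm_pw hs0
    rw [hb]
    nlinarith [ha.1, ha.2]
  have h3 := hD.aff.cmpB 1 hD.core.gate.1 ω
  rw [hD.core.hlen.1] at h3
  have h4 : min (-π.c2) (min (π.b2 1) 0) = -π.c2 := by
    have : π.b2 1 = 0 := by simp [SfPar.b2]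
    rw [this, min_self, min_eq_left (by linarith)]
  rw [h4] at h3
  have h5 : D.s * |(D.lab 1 ω).K| ≤ D.s ^ (-π.c2 - t) := by
    linarith [abs_nonneg (D.lab 1 ω).be]
  have h6 : |(D.lab 1 ω).K| ≤ D.s ^ (-π.c2 - 3 / 2) := by
    have e : D.s ^ (-π.c2 - t) = D.s * D.s ^ (-π.c2 - t - 1) := by
      have e1 : D.s * D.s ^ (-π.c2 - t - 1) = D.s ^ (1 : ℝ) * D.s ^ (-π.c2 - t - 1) := by rw [Real.rpow_one]
      rw [e1, ← Real.rpow_add hs0.1]
      congr 1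
      ring
    rw [e] at h5
    have := le_of_mul_le_mul_left h5 hs0.1
    exact this.trans (nm_pw hs0 (by linarith [ht.2]))
  have h7 : 2 * D.s ^ (-π.c2 - 3 / 2) ≤ D.s ^ (-(π.c2 + 2)) := by
    have e : D.s ^ (-π.c2 - 3 / 2) = D.s ^ (-(π.c2 + 2)) * D.s ^ (1 / 2 : ℝ) := by
      rw [← Real.rpow_add hs0.1]
      congr 1
      ring
    have h8 : D.s ^ (1 / 2 : ℝ) ≤ 1 / 2 := by
      calc D.s ^ (1 / 2 : ℝ) ≤ (1 / 4 : ℝ) ^ (1 / 2 : ℝ) := Real.rpow_le_rpow hs0.1.le hs (by norm_num)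
        _ = 1 / 2 := by
            rw [← Real.sqrt_eq_rpow]
            rw [show (1 / 4 : ℝ) = (1 / 2) ^ 2 by norm_num]
            exact Real.sqrt_sq (by norm_num)
    have h9 : 0 < D.s ^ (-(π.c2 + 2)) := Real.rpow_pos_of_pos hs0.1 _
    rw [e]
    nlinarith
  have h10 : |(D.raw π q.ds ω).ka D.s q a| ≤ |(D.lab 1 ω).K| + |(D.lab 1 ω).K - (D.raw π q.ds ω).ka D.s q a| := by
    have := abs_sub_abs_le_abs_sub ((D.raw π q.ds ω).ka D.s q a) (D.lab 1 ω).K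
    rw [abs_sub_comm] at this
    linarith
  linarith

/-- no slope unless the cut is `slope` -/
theorem nm_mk_K0 (x : NmRaw) (s : ℝ) (q : NmQ) (a : ℝ) (h : q.ds.cut ≠ NmCut.slope) : x.ka s q a = 0 := by
  unfold NmRaw.ka NmRaw.kraw
  cases hcut : q.ds.cut with
  | slope => exact absurd hcut h
  | const => exact nm_rep_zero _ _
  | none => exact nm_rep_zero _ _

/-- **E2(d)** -/
theorem nm_mk_main (π : SfPar) (hπ : π.Valid) (C0 τ κ0 Λ : ℝ) (r : NmRt) (hr : r.Ok π Λ) (hB : 3 ≤ r.B) (hh : 0 < r.h) :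
    NmA π C0 τ κ0 fun _ D => ∃ ta Ra ka : NmZv D.Idx → ℝ, (∀ x, |ka x| ≤ D.s ^ (-(π.c2 + 2))) ∧ (r.q.ds.cut ≠ NmCut.slope → ∀ x, ka x = 0) ∧
      ∀ ω, (D.P 1).p ω ≠ 0 →
      (|((D.raw π r.q.ds ω).Te - ta (D.side π r.q r.σ r.a ω)) / D.s ^ r.a| ≤ 2 ∧
        |(D.smk π r ω).th - ((D.raw π r.q.ds ω).Te - ta (D.side π r.q r.σ r.a ω)) / D.s ^ r.a| ≤ (D.s ^ r.h) ^ r.Rm) ∧
      (r.σ.lin = false →
        |((D.raw π r.q.ds ω).be - (Ra (D.side π r.q r.σ r.a ω)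
          + ka (D.side π r.q r.σ r.a ω) * ((D.raw π r.q.ds ω).Te - ta (D.side π r.q r.σ r.a ω)))) / D.s ^ (r.q.ds.b r.a)| ≤ 3 ∧
        |(D.smk π r ω).r - ((D.raw π r.q.ds ω).be - (Ra (D.side π r.q r.σ r.a ω)
          + ka (D.side π r.q r.σ r.a ω) * ((D.raw π r.q.ds ω).Te - ta (D.side π r.q r.σ r.a ω)))) / D.s ^ (r.q.ds.b r.a)| ≤ (D.s ^ r.h) ^ r.Rm) ∧
      (r.σ.lin = true →
        |((D.raw π r.q.ds ω).Lraw D.s r.q r.a - Ra (D.side π r.q r.σ r.a ω)) / D.s ^ (π.b1 r.a)| ≤ 1 ∧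
        |(D.smk π r ω).r - ((D.raw π r.q.ds ω).Lraw D.s r.q r.a - Ra (D.side π r.q r.σ r.a ω)) / D.s ^ (π.b1 r.a)| ≤ (D.s ^ r.h) ^ r.Rm) := by
  intro acc _
  have hDe : 0 < r.q.ds.De ∧ r.q.ds.De ≤ 1 ∧ (r.q.ds.De ≠ 1 → π.hyb = false) := by
    obtain ⟨-, -, h⟩ := hr.q
    rcases h with ⟨-, -, h3, -⟩ | ⟨-, -, h3, -⟩ | ⟨-, -, -, De, h1, h2, h4, h3⟩
    · rw [h3]
      exact ⟨one_pos, le_rfl, fun h => absurd rfl h⟩
    · rw [h3]
      exact ⟨one_pos, le_rfl, fun h => absurd rfl h⟩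
    · rw [h3]
      refine ⟨h1, h2, fun h => ?_⟩
      by_contra hc
      exact h (h4 (by simpa using hc))
  have hslope : r.q.ds.cut = NmCut.slope → r.q.ds = nmDsEq π ∧ 1 < π.c2 := by
    intro hc
    obtain ⟨-, -, h⟩ := hr.q
    rcases h with ⟨-, -, h3, -⟩ | ⟨-, -, h3, -⟩ | ⟨-, -, -, De, -, -, -, h3⟩
    · refine ⟨h3, ?_⟩
      rw [h3] at hc
      by_contra hn
      simp [nmDsEq, hn] at hc
    · rw [h3] at hc
      simp [nmDsLin] at hc
    · rw [h3] at hc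
      simp [nmDsStr] at hc
  have hnone : r.σ.lin = false → r.q.ds.cut ≠ NmCut.none := by
    intro hl hc
    have htp := (hr.brq hl).1
    obtain ⟨-, -, h⟩ := hr.q
    rcases h with ⟨-, -, h3, -⟩ | ⟨-, -, -, h4⟩ | ⟨-, -, -, De, -, -, -, h3⟩
    · rw [h3] at hc
      simp only [nmDsEq] at hc
      split_ifs at hc
    · exact htp h4
    · rw [h3] at hc
      simp [nmDsStr] at hc
  obtain ⟨De, hDedef⟩ : ∃ De, De = r.q.ds.De := ⟨_, rfl⟩
  rw [← hDedef] at hDe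
  have haD : r.a < De := hDedef ▸ hr.ha.2
  obtain ⟨t0, ht0def⟩ : ∃ t0, t0 = min (1 / 4) (min ((De - r.a) / 2) (if De < 1 then (1 - De) / 2 else 1)) := ⟨_, rfl⟩
  have ht0 : 0 < t0 := by
    rw [ht0def]
    refine lt_min (by norm_num) (lt_min (by linarith) ?_)
    split_ifs with h
    · linarith
    · norm_num
  have ht1 : t0 ≤ 1 / 4 := ht0def ▸ min_le_left _ _
  have ht2 : t0 ≤ (De - r.a) / 2 := ht0def ▸ (min_le_right _ _).trans (min_le_left _ _)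
  have ht3 : De < 1 → t0 ≤ (1 - De) / 2 := by
    intro h
    have := (min_le_right (1 / 4 : ℝ) (min ((De - r.a) / 2) (if De < 1 then (1 - De) / 2 else 1))).trans (min_le_right _ _)
    rw [← ht0def, if_pos h] at this
    exact this
  refine ⟨t0, ht0, fun D hD _ => ?_⟩
  have hcore := hD.ok.core
  have hs := hcore.hs
  have hs4 : D.s ≤ 1 / 4 := hD.sm.trans ht1
  have hG : D.gt De ∈ D.G := nm_gt_mem D ⟨1, hcore.gate.1⟩ De
  have hnear := nm_gt_near hD hDe.1.le hDe.2.1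
  have hE : D.EndOk π De := by
    by_cases h1 : De = 1
    · exact Or.inl h1
    · have hlt : De < 1 := lt_of_le_of_ne hDe.2.1 h1
      refine Or.inr ⟨h1, ?_, hDe.2.2 h1⟩
      have h2 := (abs_le.1 hnear).2
      have h3 := ht3 hlt
      linarith
  have ha : r.a ≤ D.gt De - t0 := by
    have h2 := (abs_le.1 hnear).1
    linarith
  rw [hDedef] at hG hE ha
  refine ⟨nmFrT D.s r.a, nmFrR D.s π r.q r.σ.lin r.a, fun x => if r.q.ds.cut = NmCut.slope then nmFrK D.s π r.q r.a x else 0,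
    fun x => ?_, fun hc x => if_neg hc, fun ω hω => ?_⟩
  · beta_reduce
    split_ifs
    · exact nm_mk_frK D.s π r.q r.a hs.1 x
    · rw [abs_zero]
      exact (Real.rpow_pos_of_pos hs.1 _).le
  · obtain ⟨f1, f2, f3, f4⟩ := nm_mk_frame D π r.q r.σ r.a ω
    have htime := nm_mk_time hcore r.q.ds hE hG ha ω hω
    have hka : (if r.q.ds.cut = NmCut.slope then nmFrK D.s π r.q r.a (D.side π r.q r.σ r.a ω) else 0) = (D.raw π r.q.ds ω).ka D.s r.q r.a := by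
      split_ifs with hc
      · obtain ⟨h1, h2⟩ := hslope hc
        exact f4 (nm_mk_K hD.ok ⟨ht0, by linarith⟩ hs4 r.q h1 h2 ⟨hr.ha.1.le, by linarith [hDe.2.1]⟩ ω)
      · exact (nm_mk_K0 _ _ _ _ hc).symm
    have hbd := nm_mk_bdd hs.1 hs.2 (D.raw π r.q.ds ω) π r.q r.a (!r.σ.lin) (fun hq => hnone (by simpa using hq)) htime
    have hδ0 : 0 < D.s ^ r.h := Real.rpow_pos_of_pos hs.1 _
    have hδ1 : D.s ^ r.h < 1 := Real.rpow_lt_one hs.1.le hs.2 hh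
    have hst := nm_mk_store (Rm := r.Rm) (B := r.B) hδ0 hδ1 ((D.raw π r.q.ds ω).mark D.s π r.q r.a (!r.σ.lin))
      ⟨by linarith [hbd.1], by linarith [hbd.2.1], by linarith [hbd.2.2]⟩
    beta_reduce
    rw [hka, f1]
    refine ⟨⟨hbd.1, hst.1⟩, fun hl => ?_, fun hl => ?_⟩
    · rw [f2 hl]
      have e : ((D.raw π r.q.ds ω).mark D.s π r.q r.a (!r.σ.lin)).r
          = ((D.raw π r.q.ds ω).be - ((D.raw π r.q.ds ω).Ra D.s r.q r.a
            + (D.raw π r.q.ds ω).ka D.s r.q r.a * ((D.raw π r.q.ds ω).Te - (D.raw π r.q.ds ω).ta D.s r.a))) / D.s ^ (r.q.ds.b r.a) := by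
        rw [hl, mul_comm]
        rfl
      rw [← e]
      exact ⟨hbd.2.1, hst.2.1⟩
    · rw [f3 hl]
      have e : ((D.raw π r.q.ds ω).mark D.s π r.q r.a (!r.σ.lin)).r
          = ((D.raw π r.q.ds ω).Lraw D.s r.q r.a - nmRep D.s (π.b1 r.a) ((D.raw π r.q.ds ω).Lraw D.s r.q r.a)) / D.s ^ (π.b1 r.a) := by
        rw [hl]
        rfl
      rw [← e]
      refine ⟨?_, hst.2.1⟩
      rw [e]
      have hs1 : 0 < D.s ^ (π.b1 r.a) := Real.rpow_pos_of_pos hs.1 _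
      rw [abs_div, abs_of_pos hs1, div_le_iff₀ hs1, one_mul]
      exact nm_rep_abs hs.1 hs.2 _ _

theorem nm_sd_mark_eqns_cite : True := by
  have := @nmFrT.eq_1; have := @nmFrR.eq_1; have := @nmFrK.eq_1
  trivial

end

end Claimed.Agent.R256
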