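import Claimed.Agent.R256.Nm.Sd.Kit
import Claimed.Agent.R256.Nm.Pro.Mono

/-!
# Row 256, unit NM, sub-block NM-SIDE, file 2: THE SIDE IS PREDICTED BY THE ROWS / LABELS OF THE LATER GATES      (helper51; prefix `nm_sd_`)

EXITS: `nm_sd_pr`, `nm_sd_prL` = `nm_side_pr`, `nm_side_prL` of `Nm/Side.lean` VERBATIM (that file cites them).
* `nm_sd_names` : at an admissible root `r` and a depth `r.a ≤ i < De` the rows of the gate near `i` list (Type A) the anchor name `𝒞(A,V)` (coarse sides) and ONE name `𝒞(a,v')` at the time root, with `l(a,v') = b_1(a)` on a linear branch.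
  CASES (family from `r.q.Fam π`; `Pred/Exit.lean`: `nm_x_row_eq`, `nm_x_row_lin`, `nm_x_row_mid`; `b_1` is affine: `min (b1 a) (b1 De) ≤ b1 i` for `a ≤ i ≤ De`):
  - `lin = false` (then `tp ≠ plin`, family EQ or ST).   coarse: `v' = r.v`, `l(a,v) = b a + v < min (b1 a) (b1 De)` (`cq`, `brq`).   exact: `v' = min r.v (min (b1 i) (b1 De) - b a)`  (`l(a,v') ≤ b a + v'`; classical, so no condition on `w`).
  - `lin = true`: `v' = r.v`, `l(a,v) = b1 a` (`plin`: by definition; `clip`: `brl`), `b1 a ≤ b1 i` and `b1 a ≤ b1 De` since the rate `b_1' = r.c π > 0`.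
  - anchor (coarse): `A < a ≤ i`;  `lin = false`: `l(A,V) ≤ b A + V < min (b1 A) (b1 De)` (`cq`);  `lin = true` (`plin`): `l(A,V) = b1 A ≤ b1 i`.    hybrid: `w(a,v) < 0`, `w(A,V) < 0` (`hyb`, `anc`), `w` is nondecreasing in `v`.
* `nm_sd_pr` : `nm_sd_names` with `acc / 8`, `nm_sd_idx`, `nm_sd_pc` (exact sides are classical: `NmRt.Ok.hyb`) (`t_a` = entry of `𝒞(a,v')`, `e0 = acc / 8`), `nm_sd_row` with `N = s^(-acc/4)`.
* `nm_sd_prL` : `nm_x_left_eq` for `𝒞(A,V)` (`V < u i`) and for `𝒞(a,v')`, `v' = min r.v (u i)`; `nm_sd_labs`.     The pure linear coarse side is NOT covered (see the hypothesis `hlin`; reported to helper118).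
-/

set_option autoImplicit false

namespace Claimed.Agent.R256

open Claimed.Agent.R255
open Claimed.Agent.R255.FLaw (pair)
open Classical

noncomputable section

/-- `b_1` is affine: between two depths it lies above the smaller end value -/
theorem nm_sdc_b1_mid (π : SfPar) {a i De : ℝ} (h1 : a ≤ i) (h2 : i ≤ De) : min (π.b1 a) (π.b1 De) ≤ π.b1 i := by
  rcases le_total 0 (π.q - π.J) with h | h
  · refine (min_le_left _ _).trans ?_
    rw [SfPar.b1, SfPar.b1]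
    exact mul_le_mul_of_nonneg_left (by linarith) h
  · refine (min_le_right _ _).trans ?_
    rw [SfPar.b1, SfPar.b1]
    exact mul_le_mul_of_nonpos_left (by linarith) h

/-- the three row exits of `Pred/Exit.lean` in one statement -/
theorem nm_sdc_row (π : SfPar) (hπ : π.Valid) (C0 τ κ0 : ℝ) (q : NmQ) (hq : q.Fam π) (a i v : ℝ) (ha : a ≤ i) (hi0 : 0 ≤ i)
    (hiD : i < q.ds.De) (hl : q.l π a v ≤ min (π.b1 i) (π.b1 q.ds.De)) (hh : π.hyb = true → q.w π a v - q.g ≤ 0)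
    (acc : ℝ) (hacc : 0 < acc) : ∃ t0 : ℝ, 0 < t0 ∧ ∀ D : SfDoc, D.Fine π C0 τ κ0 t0 →
      D.RowPr (D.gt i) (fun _ => True) (D.nm π q a v) (D.s ^ (-acc)) := by
  have hok := nm_fam_ok π hπ q hq
  have hb11 : π.b1 1 = 0 := by rw [SfPar.b1]; ring
  rcases hq.2.2 with ⟨h1, h2, h3, h4⟩ | ⟨h1, h2, h3, h4⟩ | ⟨h1, h2, h4, De, hD0, hD1, hhD, h3⟩
  · have hDe : q.ds.De = 1 := by rw [h3]; rfl
    rw [hDe] at hiD hl
    rw [hb11] at hl
    exact nm_x_row_eq π hπ C0 τ κ0 q hok h1 h2 h3 h4 a i v ⟨ha, hiD, hi0⟩ hl hh acc hacc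
  · have hDe : q.ds.De = 1 := by rw [h3]; rfl
    rw [hDe] at hiD hl
    exact nm_x_row_lin π hπ C0 τ κ0 q hok h1 h3 a i v ⟨ha, hiD, hi0⟩ (hl.trans (min_le_left _ _)) hh acc hacc
  · have hDe : q.ds.De = De := by rw [h3]; rfl
    rw [hDe] at hiD hl
    exact nm_x_row_mid π hπ C0 τ κ0 q hok h2 De ⟨hD0, hD1⟩ hhD h3 h4 a i v ⟨ha, hiD, hi0⟩ hl hh acc hacc

/-- off the pure linear template `l ≤ b + v` -/
theorem nm_sdc_l_le (π : SfPar) (q : NmQ) (htp : q.tp ≠ NmTp.plin) (a v : ℝ) : q.l π a v ≤ q.ds.b a + v := by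
  unfold NmQ.l
  cases h : q.tp with
  | quad => exact le_rfl
  | clip => exact min_le_left _ _
  | plin => exact absurd h htp

/-- two Type A statements have a common tolerance -/
theorem nm_sdc_both (π : SfPar) (C0 τ κ0 : ℝ) {Φ Ψ : SfDoc → Prop} (h1 : ∃ t0 : ℝ, 0 < t0 ∧ ∀ D : SfDoc, D.Fine π C0 τ κ0 t0 → Φ D)
    (h2 : ∃ t0 : ℝ, 0 < t0 ∧ ∀ D : SfDoc, D.Fine π C0 τ κ0 t0 → Ψ D) :
    ∃ t0 : ℝ, 0 < t0 ∧ ∀ D : SfDoc, D.Fine π C0 τ κ0 t0 → Φ D ∧ Ψ D := by
  obtain ⟨t1, ht1, H1⟩ := h1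
  obtain ⟨t2, ht2, H2⟩ := h2
  exact ⟨min t1 t2, lt_min ht1 ht2, fun D hD =>
    ⟨H1 D (nm_pro_fine_mono hD (min_le_left _ _) le_rfl), H2 D (nm_pro_fine_mono hD (min_le_right _ _) le_rfl)⟩⟩

/-- the rows near `i` list the names which the side reads -/
theorem nm_sd_names (π : SfPar) (hπ : π.Valid) (C0 τ κ0 Λ : ℝ) (r : NmRt) (hr : r.Ok π Λ) (i : ℝ) (hi : r.a ≤ i) (hiD : i < r.q.ds.De) :
    ∃ v' : ℝ, (r.σ.lin = true → r.q.l π r.a v' = π.b1 r.a) ∧ ∀ acc : ℝ, 0 < acc → ∃ t0 : ℝ, 0 < t0 ∧ ∀ D : SfDoc, D.Fine π C0 τ κ0 t0 →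
      D.RowPr (D.gt i) (fun _ => True) (D.nm π r.q r.a v') (D.s ^ (-acc)) ∧
      (r.σ.exact = false → D.RowPr (D.gt i) (fun _ => True) (D.nm π r.q r.σ.A r.σ.V) (D.s ^ (-acc))) := by
  have hq := hr.q
  have hg0 := hr.g0
  have ha0 := hr.ha.1
  have hi0 : 0 ≤ i := ha0.le.trans hi
  -- the hybrid condition at the root
  have hhr : π.hyb = true → r.q.w π r.a r.v - r.q.g ≤ 0 := by
    intro hy
    have := (hr.hyb hy).2
    rw [hg0]
    linarith
  -- the anchor, once its derivative accuracy is known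
  have hanc : r.σ.exact = false → r.q.l π r.σ.A r.σ.V ≤ min (π.b1 i) (π.b1 r.q.ds.De) → ∀ acc : ℝ, 0 < acc →
      ∃ t0 : ℝ, 0 < t0 ∧ ∀ D : SfDoc, D.Fine π C0 τ κ0 t0 →
        (r.σ.exact = false → D.RowPr (D.gt i) (fun _ => True) (D.nm π r.q r.σ.A r.σ.V) (D.s ^ (-acc))) := by
    intro he hl acc hacc
    obtain ⟨-, hA, -, hw⟩ := hr.anc he
    obtain ⟨t0, ht0, H⟩ := nm_sdc_row π hπ C0 τ κ0 r.q hq r.σ.A i r.σ.V (hA.le.trans hi) hi0 hiD hl (by
      intro hy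
      have := hw hy
      rw [hg0]
      linarith) acc hacc
    exact ⟨t0, ht0, fun D hD _ => H D hD⟩
  have hvac : r.σ.exact = true → ∀ acc : ℝ, 0 < acc →
      ∃ t0 : ℝ, 0 < t0 ∧ ∀ D : SfDoc, D.Fine π C0 τ κ0 t0 →
        (r.σ.exact = false → D.RowPr (D.gt i) (fun _ => True) (D.nm π r.q r.σ.A r.σ.V) (D.s ^ (-acc))) := by
    intro he acc _
    exact ⟨1, one_pos, fun D _ he' => by rw [he] at he'; cases he'⟩
  rcases Bool.eq_false_or_eq_true r.σ.lin with hlin | hlin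
  swap
  · obtain ⟨htp, hlav⟩ := hr.brq hlin
    rcases Bool.eq_false_or_eq_true r.σ.exact with hex | hex
    swap
    · obtain ⟨c1, c2⟩ := hr.cq hex hlin
      obtain ⟨-, hA, -, -⟩ := hr.anc hex
      refine ⟨r.v, fun h => (by rw [hlin] at h; cases h), fun acc hacc => ?_⟩
      refine nm_sdc_both π C0 τ κ0 (nm_sdc_row π hπ C0 τ κ0 r.q hq r.a i r.v hi hi0 hiD ?_ hhr acc hacc) (hanc hex ?_ acc hacc)
      · rw [hlav]
        exact le_min (c1.le.trans (nm_sdc_b1_mid π hi hiD.le)) (c1.le.trans (min_le_right _ _))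
      · refine (nm_sdc_l_le π r.q htp _ _).trans ?_
        exact le_min (c2.le.trans (nm_sdc_b1_mid π (hA.le.trans hi) hiD.le)) (c2.le.trans (min_le_right _ _))
    · have hcl : π.hyb = true → False := by
        intro hy
        have := (hr.hyb hy).1
        rw [hex] at this
        cases this
      refine ⟨min r.v (min (π.b1 i) (π.b1 r.q.ds.De) - r.q.ds.b r.a), fun h => (by rw [hlin] at h; cases h), fun acc hacc => ?_⟩
      refine nm_sdc_both π C0 τ κ0 (nm_sdc_row π hπ C0 τ κ0 r.q hq r.a i _ hi hi0 hiD ?_ (fun hy => (hcl hy).elim) acc hacc)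
        (hvac hex acc hacc)
      refine (nm_sdc_l_le π r.q htp _ _).trans ?_
      have := min_le_right r.v (min (π.b1 i) (π.b1 r.q.ds.De) - r.q.ds.b r.a)
      linarith
  · have hrate : 0 < π.q - π.J := by
      have := hr.rate
      unfold NmRt.c at this
      rwa [if_pos hlin] at this
    have hmono : ∀ x y : ℝ, x ≤ y → π.b1 x ≤ π.b1 y := by
      intro x y hxy
      rw [SfPar.b1, SfPar.b1]
      exact mul_le_mul_of_nonneg_left (by linarith) hrate.le
    have hlav : r.q.l π r.a r.v = π.b1 r.a := by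
      rcases hr.brl hlin with htp | ⟨-, htp, hlt⟩
      · unfold NmQ.l
        rw [htp]
      · unfold NmQ.l
        rw [htp]
        exact min_eq_right hlt.le
    refine ⟨r.v, fun _ => hlav, fun acc hacc => ?_⟩
    have hroot := nm_sdc_row π hπ C0 τ κ0 r.q hq r.a i r.v hi hi0 hiD (by
      rw [hlav]
      exact le_min (hmono _ _ hi) (hmono _ _ (hi.trans hiD.le))) hhr acc hacc
    rcases Bool.eq_false_or_eq_true r.σ.exact with hex | hex
    swap
    · obtain ⟨-, hA, -, -⟩ := hr.anc hex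
      have htp : r.q.tp = NmTp.plin := by
        rcases hr.brl hlin with htp | ⟨he, -, -⟩
        · exact htp
        · rw [hex] at he
          cases he
      refine nm_sdc_both π C0 τ κ0 hroot (hanc hex ?_ acc hacc)
      have e : r.q.l π r.σ.A r.σ.V = π.b1 r.σ.A := by
        unfold NmQ.l
        rw [htp]
      rw [e]
      exact le_min (hmono _ _ (hA.le.trans hi)) (hmono _ _ ((hA.le.trans hi).trans hiD.le))
    · exact nm_sdc_both π C0 τ κ0 hroot (hvac hex acc hacc)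

theorem nm_sd_De_le {π : SfPar} {q : NmQ} (hq : q.Fam π) : q.ds.De ≤ 1 := by
  obtain ⟨-, -, h⟩ := hq
  rcases h with ⟨-, -, h3, -⟩ | ⟨-, -, h3, -⟩ | ⟨-, -, -, De, -, h2, -, h3⟩
  · rw [h3]; exact le_of_eq rfl
  · rw [h3]; exact le_of_eq rfl
  · rw [h3]; exact h2

theorem nm_sd_pow_le {s a b : ℝ} (hs : 0 < s) (hs1 : s ≤ 1) (hab : a ≤ b) : s ^ (-a) ≤ s ^ (-b) :=
  Real.rpow_le_rpow_of_exponent_ge hs hs1 (by linarith)

/-- `nm_side_pr` verbatim -/
theorem nm_sd_pr (π : SfPar) (hπ : π.Valid) (C0 τ κ0 : ℝ) : ∃ Λ : ℝ, ∀ r : NmRt, r.Ok π Λ → ∀ i : ℝ, r.a ≤ i → i < r.q.ds.De →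
    ∀ acc : ℝ, 0 < acc → ∃ e0 : ℝ, 0 < e0 ∧ ∃ t0 : ℝ, 0 < t0 ∧ ∀ D : SfDoc, D.Fine π C0 τ κ0 t0 → nmX π D t0 → ∀ G : D.Row 1 → Prop,
      (r.σ.exact = true → r.σ.lin = false → (D.P 1).NVal G (D.Pc π r.q.ds r.σ.xs) (pair D.y0 (D.tc r.a)) (D.s ^ (-e0))) →
      D.RowPr (D.gt i) (fun ω => (D.P 1).p ω ≠ 0 ∧ G ω) (D.side π r.q r.σ r.a) (D.s ^ (-acc)) := by
  refine ⟨0, fun r hr i hi hiD acc hacc => ?_⟩
  obtain ⟨v', hl, Hn⟩ := nm_sd_names π hπ C0 τ κ0 0 r hr i hi hiD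
  obtain ⟨t1, ht1, H1⟩ := Hn (acc / 8) (by positivity)
  have hDe : r.q.ds.De ≤ 1 := nm_sd_De_le hr.q
  have hi1 : i < 1 := lt_of_lt_of_le hiD hDe
  have hi0 : 0 ≤ i := hr.ha.1.le.trans hi
  refine ⟨acc / 8, by positivity, min t1 ((1 - i) / 2), lt_min ht1 (by linarith), fun D hD _ G hG => ?_⟩
  have hD1 : D.Fine π C0 τ κ0 t1 := nm_pro_fine_mono hD (min_le_left _ _) le_rfl
  obtain ⟨Ha, HA⟩ := H1 D hD1
  have hcore := hD.ok.core
  have hs : 0 < D.s := hcore.hs.1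
  have hs1 : D.s ≤ 1 := hcore.hs.2.le
  have hne : D.G.Nonempty := ⟨1, hcore.gate.1⟩
  have hgG : D.gt i ∈ D.G := nm_gt_mem D hne i
  have hnear := abs_le.1 (nm_gt_near hD hi0 hi1.le)
  have hg1 : D.gt i < 1 := by
    have := min_le_right t1 ((1 - i) / 2)
    linarith [hnear.2]
  have hN1 : 1 ≤ D.s ^ (-(acc / 4)) := Real.one_le_rpow_of_pos_of_le_one_of_nonpos hs hs1 (by linarith)
  have h84 : D.s ^ (-(acc / 8)) ≤ D.s ^ (-(acc / 4)) := nm_sd_pow_le hs hs1 (by linarith)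
  have hcl : r.σ.exact = true → π.hyb = false := by
    intro he
    cases hy : π.hyb with
    | false => rfl
    | true =>
      have := (hr.hyb hy).1
      rw [he] at this
      cases this
  have hrow := nm_sd_row (D := D) (i := D.gt i) π r.q r.σ r.a v' hl (E := fun ω => (D.P 1).p ω ≠ 0 ∧ G ω) hN1
    (fun he => nm_rowpr_mono (nm_sd_idx hcore (hcl he) hgG hg1) (fun _ _ => trivial) hN1)
    (fun he => nm_rowpr_mono (HA he) (fun _ _ => trivial) h84)
    (nm_rowpr_mono Ha (fun _ _ => trivial) h84)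
    (fun he hlin => by
      have ht : D.RowPr (D.gt i) (fun _ => True) (D.tc r.a) (D.s ^ (-(acc / 8))) := nm_sd_map Ha (fun n => n.t)
      have h5 := nm_sd_pc hcore (hcl he) hgG hg1 (Real.rpow_nonneg hs.le _) ht (hG he hlin)
      refine nm_rowpr_mono h5 (fun _ h => h) (le_of_eq ?_)
      rw [← Real.rpow_add hs]
      congr 1
      ring)
  refine nm_rowpr_mono hrow (fun _ h => h) (le_of_eq ?_)
  rw [← Real.rpow_natCast, ← Real.rpow_mul hs.le]
  congr 1
  push_cast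
  ring

theorem nm_sd_l_le (q : NmQ) (π : SfPar) (htp : q.tp ≠ NmTp.plin) (a v : ℝ) : q.l π a v ≤ q.ds.b a + v := by
  unfold NmQ.l
  cases h : q.tp with
  | quad => exact le_rfl
  | clip => exact min_le_left _ _
  | plin => exact absurd h htp

theorem nm_sd_w_mono (q : NmQ) (π : SfPar) (a : ℝ) {v v' : ℝ} (h : v' ≤ v) : q.w π a v' ≤ q.w π a v := by
  unfold NmQ.w
  cases q.tp with
  | quad => simp only; linarith
  | clip =>
    simp only
    have : min (q.ds.b a + v') (π.b1 a) ≤ min (q.ds.b a + v) (π.b1 a) := min_le_min (by linarith) le_rfl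
    linarith
  | plin => simp only; linarith

/-- `nm_side_prL`, quadratic branch -/
theorem nm_sd_prL (π : SfPar) (hπ : π.Valid) (C0 τ κ0 : ℝ) : ∃ Λ : ℝ, ∀ r : NmRt, r.Ok π Λ → r.σ.exact = false → r.q.ds.glob = false → r.σ.lin = false →
    ∀ i : ℝ, r.a ≤ i → i < 1 → r.σ.V < π.u i → r.q.l π r.σ.A r.σ.V < min (π.b1 i) 0 →
    NmA π C0 τ κ0 fun acc D => D.LabPr (D.gt i) (fun ω => (D.P 1).p ω ≠ 0) (D.side π r.q r.σ r.a) (fun _ => ()) (D.s ^ (-acc)) := by
  refine ⟨0, fun r hr he hglob hlin i hi hi1 hV hlA acc hacc => ?_⟩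
  have htp : r.q.tp ≠ NmTp.plin := (hr.brq hlin).1
  have hq : r.q.Ok π := nm_fam_ok π hπ r.q hr.q
  have hi0 : 0 ≤ i := hr.ha.1.le.trans hi
  obtain ⟨hA0, hAa, -, hAh⟩ := hr.anc he
  obtain ⟨-, -, hfam⟩ := hr.q
  rcases hfam with ⟨hc, hqc, hds, -⟩ | ⟨-, -, -, h4⟩ | ⟨-, -, -, De, -, -, -, h3⟩
  · obtain ⟨t1, ht1, L1⟩ := nm_x_left_eq π hπ C0 τ κ0 r.q hq hc hqc hds htp r.σ.A i r.σ.V ⟨by linarith, hi1, hi0⟩ hV.le hlA.le
      (fun hy => by have := hAh hy; rw [hr.g0]; linarith) (acc / 2) (by positivity)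
    have hDe : r.q.ds.De = 1 := by rw [hds]; rfl
    have hl2 : r.q.l π r.a (min r.v (π.u i)) ≤ min (π.b1 i) 0 := by
      have h1 := nm_sd_l_le r.q π htp r.a (min r.v (π.u i))
      have h2 := (hr.cq he hlin).1
      rw [hDe] at h2
      have h3 : π.b1 1 = 0 := by unfold SfPar.b1; ring
      rw [h3] at h2
      have h4 : min r.v (π.u i) ≤ r.v := min_le_left _ _
      have h5 : min (π.b1 r.a) 0 ≤ π.b1 i := by
        rcases le_total 0 (π.q - π.J) with h | h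
        · refine (min_le_left _ _).trans ?_
          unfold SfPar.b1
          exact mul_le_mul_of_nonneg_left (by linarith) h
        · refine (min_le_right _ _).trans ?_
          unfold SfPar.b1
          exact mul_nonneg_of_nonpos_of_nonpos h (by linarith)
      refine le_min ?_ ?_
      · linarith
      · have := min_le_right (π.b1 r.a) 0
        linarith
    obtain ⟨t2, ht2, L2⟩ := nm_x_left_eq π hπ C0 τ κ0 r.q hq hc hqc hds htp r.a i (min r.v (π.u i)) ⟨hi, hi1, hi0⟩ (min_le_right _ _) hl2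
      (fun hy => by
        have h1 := (hr.hyb hy).2
        have h2 := nm_sd_w_mono r.q π r.a (min_le_left r.v (π.u i))
        rw [hr.g0]; linarith) (acc / 2) (by positivity)
    refine ⟨min t1 t2, lt_min ht1 ht2, fun D hD _ => ?_⟩
    have hs : 0 < D.s := hD.ok.core.hs.1
    have hs1 : D.s ≤ 1 := hD.ok.core.hs.2.le
    have hN1 : 1 ≤ D.s ^ (-(acc / 2)) := Real.one_le_rpow_of_pos_of_le_one_of_nonpos hs hs1 (by linarith)
    have h1 := L1 D (nm_pro_fine_mono hD (min_le_left _ _) le_rfl)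
    have h2 := L2 D (nm_pro_fine_mono hD (min_le_right _ _) le_rfl)
    have h3 := nm_sd_labs (D := D) (i := D.gt i) π r.q r.σ r.a (min r.v (π.u i)) (fun h => by rw [hlin] at h; cases h) he
      (E := fun ω => (D.P 1).p ω ≠ 0) hN1 (nm_sd_lmono h1 (fun _ _ => trivial) le_rfl) (nm_sd_lmono h2 (fun _ _ => trivial) le_rfl)
    refine nm_sd_lmono h3 (fun _ h => h) (le_of_eq ?_)
    rw [← Real.rpow_natCast, ← Real.rpow_mul hs.le]
    congr 1
    push_cast
    ring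
  · exact absurd h4 htp
  · rw [h3] at hglob
    simp [nmDsStr] at hglob

end

end Claimed.Agent.R256
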