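import Claimed.Agent.R256.Nm.Base
import Claimed.Agent.R256.Nm.Pred.Exit

/-!
# Row 256, unit NM, sub-block NM-SIDE (post BP-256-NM-GRD-SIDE; 04-canonical-names.tex l.672-684), file 1: CALCULUS OF LISTS, THE SIDE AS A FUNCTION OF NAMES      (helper51; prefix `nm_sd_`)

PAPER-FREE.
* `nm_sd_map`, `nm_sd_pair`, `nm_sd_lab` : `RowPr` under maps, pairs; `LabPr ⇒ RowPr`.     `nm_sd_lmap`, `nm_sd_lpair` : the same for `LabPr` (no side information).
* `nm_sd_idx` : classical: a row knows the particle `y_0 = (idx, ray)`.     `nm_sd_pc` : a variable listed by `(y_0, t_a)` (`NVal` on `G`) is listed by the rows which list `t_a`.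
* `nmSideF`, `nm_sd_eq` : the side variable `Z` at the time root `a` is a function of `(y_0, 𝒞(A,V), 𝒞(a,v'), [P]_{x_*})` for ANY `v'` (linear branch: any `v'` with `l(a,v') = b_1(a)`): the entries `k̄, t_a, R_a, k_a` of a name do not depend on `v'`.
* `nm_sd_row`, `nm_sd_labs` : lists of the four variables give lists of the side.
-/

set_option autoImplicit false

namespace Claimed.Agent.R256

open Claimed.Agent.R255
open Claimed.Agent.R255.FLaw (pair)
open Classical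

noncomputable section

variable {D : SfDoc} {i : ℝ}

theorem nm_sd_map {β γ : Type} {E : D.Row 1 → Prop} {B : D.Row 1 → β} {N : ℝ} (h : D.RowPr i E B N) (f : β → γ) :
    D.RowPr i E (fun ω => f (B ω)) N := by
  intro ρ
  obtain ⟨S, hS, h1⟩ := h ρ
  refine ⟨S.image f, ?_, fun ω hc hE => Finset.mem_image_of_mem f (h1 ω hc hE)⟩
  exact (Nat.cast_le.2 Finset.card_image_le).trans hS

theorem nm_sd_pair {β γ : Type} {E : D.Row 1 → Prop} {B : D.Row 1 → β} {B' : D.Row 1 → γ} {N N' : ℝ} (h : D.RowPr i E B N) (h' : D.RowPr i E B' N') :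
    D.RowPr i E (fun ω => (B ω, B' ω)) (N * N') := by
  intro ρ
  obtain ⟨S, hS, h1⟩ := h ρ
  obtain ⟨S', hS', h1'⟩ := h' ρ
  refine ⟨S ×ˢ S', ?_, fun ω hc hE => Finset.mem_product.2 ⟨h1 ω hc hE, h1' ω hc hE⟩⟩
  rw [Finset.card_product, Nat.cast_mul]
  exact mul_le_mul hS hS' (Nat.cast_nonneg _) ((Nat.cast_nonneg _).trans hS)

theorem nm_sd_lab (hi : i ≠ 1) {β : Type} {E : D.Row 1 → Prop} {B : D.Row 1 → β} {N : ℝ} (h : D.LabPr i E B (fun _ => ()) N) : D.RowPr i E B N := by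
  intro ρ
  obtain ⟨S, hS, h1⟩ := h (D.lab i ρ) ()
  refine ⟨S, hS, fun ω hc hE => h1 ω ?_ hE rfl⟩
  unfold SfDoc.Met
  rw [if_neg hi]
  exact ⟨ρ, rfl, hc⟩

theorem nm_sd_lmap {β γ : Type} {E : D.Row 1 → Prop} {B : D.Row 1 → β} {N : ℝ} (h : D.LabPr i E B (fun _ => ()) N) (f : β → γ) :
    D.LabPr i E (fun ω => f (B ω)) (fun _ => ()) N := by
  intro lam x
  obtain ⟨S, hS, h1⟩ := h lam x
  refine ⟨S.image f, ?_, fun ω hc hE hx => Finset.mem_image_of_mem f (h1 ω hc hE hx)⟩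
  exact (Nat.cast_le.2 Finset.card_image_le).trans hS

theorem nm_sd_lpair {β γ : Type} {E : D.Row 1 → Prop} {B : D.Row 1 → β} {B' : D.Row 1 → γ} {N N' : ℝ} (h : D.LabPr i E B (fun _ => ()) N)
    (h' : D.LabPr i E B' (fun _ => ()) N') : D.LabPr i E (fun ω => (B ω, B' ω)) (fun _ => ()) (N * N') := by
  intro lam x
  obtain ⟨S, hS, h1⟩ := h lam x
  obtain ⟨S', hS', h1'⟩ := h' lam x
  refine ⟨S ×ˢ S', ?_, fun ω hc hE hx => Finset.mem_product.2 ⟨h1 ω hc hE hx, h1' ω hc hE hx⟩⟩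
  rw [Finset.card_product, Nat.cast_mul]
  exact mul_le_mul hS hS' (Nat.cast_nonneg _) ((Nat.cast_nonneg _).trans hS)

theorem nm_sd_lmono {α β : Type} {E E' : D.Row 1 → Prop} {B : D.Row 1 → β} {A : D.Row 1 → α} {N N' : ℝ} (h : D.LabPr i E B A N)
    (hE : ∀ ω, E' ω → E ω) (hN : N ≤ N') : D.LabPr i E' B A N' := by
  intro lam x
  obtain ⟨S, hS, h1⟩ := h lam x
  exact ⟨S, hS.trans hN, fun ω hc hE' hx => h1 ω hc (hE ω hE') hx⟩

theorem nm_sd_y0_45 {π : SfPar} {C0 t : ℝ} (hD : D.Core π C0 t) (hcl : π.hyb = false) (hi : i ∈ D.G) (hi1 : i < 1) (ρ : D.Row i) (ω : D.Row 1)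
    (hc : D.Conn i 1 ρ ω) : D.y0 ω = (D.idx i ρ, D.ray i ρ) := by
  have h1 := hD.base i hi 1 hD.gate.1 hi1 ρ ω hc
  have h2 := hD.normC hcl i hi 1 hD.gate.1 hi1 ρ ω hc
  exact Prod.ext h1.2.2.1.symm h2.symm

/-- classical: a row knows the particle and its ray (`Core.base`, `Core.normC`) -/
theorem nm_sd_idx {π : SfPar} {C0 t : ℝ} (hD : D.Core π C0 t) (hc : π.hyb = false) (hi : i ∈ D.G) (hi1 : i < 1) : D.RowPr i (fun _ => True) D.y0 1 := by
  intro ρ
  refine ⟨{(D.idx i ρ, D.ray i ρ)}, by simp, fun ω hcn _ => ?_⟩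
  rw [Finset.mem_singleton]
  exact nm_sd_y0_45 hD hc hi hi1 ρ ω hcn

/-- a variable listed by `(y_0, t_a)` on `G` -/
theorem nm_sd_pc {π : SfPar} {C0 t : ℝ} (hD : D.Core π C0 t) (hc : π.hyb = false) (hi : i ∈ D.G) (hi1 : i < 1) {β : Type} {G : D.Row 1 → Prop} {B : D.Row 1 → β} {a N Nt : ℝ}
    (hN : 0 ≤ N) (ht : D.RowPr i (fun _ => True) (D.tc a) Nt) (h : (D.P 1).NVal G B (pair D.y0 (D.tc a)) N) :
    D.RowPr i (fun ω => (D.P 1).p ω ≠ 0 ∧ G ω) B (Nt * N) := by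
  intro ρ
  obtain ⟨St, hSt, h1⟩ := ht ρ
  obtain ⟨F, hF⟩ : ∃ F : ℤ → Finset β, ∀ τ, ((F τ).card : ℝ) ≤ N ∧ ∀ ω : D.Row 1, D.Conn i 1 ρ ω → D.tc a ω = τ → (D.P 1).p ω ≠ 0 → G ω → B ω ∈ F τ := by
    refine ⟨fun τ => if hx : ∃ ω₀ : D.Row 1, D.Conn i 1 ρ ω₀ ∧ D.tc a ω₀ = τ then (h hx.choose).choose else ∅, fun τ => ?_⟩
    by_cases hx : ∃ ω₀ : D.Row 1, D.Conn i 1 ρ ω₀ ∧ D.tc a ω₀ = τ
    · simp only [dif_pos hx]
      refine ⟨(h hx.choose).choose_spec.1, fun ω hcn hτ hp hG => (h hx.choose).choose_spec.2 ω hp hG ?_⟩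
      refine Prod.ext ?_ ?_
      · exact (nm_sd_y0_45 hD hc hi hi1 ρ ω hcn).trans (nm_sd_y0_45 hD hc hi hi1 ρ _ hx.choose_spec.1).symm
      · exact hτ.trans hx.choose_spec.2.symm
    · simp only [dif_neg hx]
      exact ⟨by simpa using hN, fun ω hcn hτ _ _ => absurd ⟨ω, hcn, hτ⟩ hx⟩
  refine ⟨St.biUnion F, ?_, fun ω hcn hE => Finset.mem_biUnion.2 ⟨D.tc a ω, h1 ω hcn trivial, (hF _).2 ω hcn rfl hE.1 hE.2⟩⟩
  calc ((St.biUnion F).card : ℝ) ≤ ((∑ τ ∈ St, (F τ).card : ℕ) : ℝ) := Nat.cast_le.2 Finset.card_biUnion_le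
    _ = ∑ τ ∈ St, ((F τ).card : ℝ) := by push_cast; rfl
    _ ≤ ∑ _τ ∈ St, N := Finset.sum_le_sum fun τ _ => (hF τ).1
    _ = St.card * N := by rw [Finset.sum_const, nsmul_eq_mul]
    _ ≤ Nt * N := mul_le_mul_of_nonneg_right hSt hN

/-- the side as a function of the particle, the anchor name, a name at the time root and the bin of the derivative -/
def nmSideF {I : Type} (σ : NmSd) (x : ((I × SfRay) × NmNm) × (NmNm × ℤ)) : NmZv I :=
  ((if σ.exact then some x.1.1 else none, if σ.exact then nmZero else x.1.2),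
   (x.2.1.kb, if σ.exact && !σ.lin then x.2.2 else 0, x.2.1.t),
   (x.2.1.R, x.2.1.k, if σ.lin then x.2.1.L else 0))

theorem nm_sd_eq (D : SfDoc) (π : SfPar) (q : NmQ) (σ : NmSd) (a v' : ℝ) (hl : σ.lin = true → q.l π a v' = π.b1 a) (ω : D.Row 1) :
    D.side π q σ a ω = nmSideF σ ((D.y0 ω, D.nm π q σ.A σ.V ω), (D.nm π q a v' ω, D.Pc π q.ds σ.xs ω)) := by
  unfold SfDoc.side nmSideF
  by_cases h : σ.lin = true
  · have e : (D.nm π q a v' ω).L = nmCell D.s (π.b1 a) ((D.raw π q.ds ω).Lraw D.s q a) := by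
      change nmCell D.s (q.l π a v') _ = _
      rw [hl h]
    simp only [e]
    rfl
  · simp only [h]
    rfl

theorem nm_sd_const45 {β : Type} {E : D.Row 1 → Prop} {N : ℝ} (hN : 1 ≤ N) (c : β) : D.RowPr i E (fun _ => c) N := by
  intro ρ
  exact ⟨{c}, by simpa using hN, fun ω _ _ => Finset.mem_singleton_self c⟩

/-- lists of the variables which the side really reads give lists of the side -/
theorem nm_sd_row (π : SfPar) (q : NmQ) (σ : NmSd) (a v' : ℝ) (hl : σ.lin = true → q.l π a v' = π.b1 a) {E : D.Row 1 → Prop} {N : ℝ} (hN : 1 ≤ N)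
    (h1 : σ.exact = true → D.RowPr i E D.y0 N) (h2 : σ.exact = false → D.RowPr i E (D.nm π q σ.A σ.V) N) (h3 : D.RowPr i E (D.nm π q a v') N)
    (h4 : σ.exact = true → σ.lin = false → D.RowPr i E (D.Pc π q.ds σ.xs) N) : D.RowPr i E (D.side π q σ a) (N ^ 4) := by
  have b1 : D.RowPr i E (fun ω => if σ.exact then some (D.y0 ω) else none) N := by
    by_cases h : σ.exact = true
    · simp only [h, if_true]
      exact nm_sd_map (h1 h) some
    · simp only [h]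
      exact nm_sd_const45 hN _
  have b2 : D.RowPr i E (fun ω => if σ.exact then nmZero else D.nm π q σ.A σ.V ω) N := by
    by_cases h : σ.exact = true
    · simp only [h, if_true]
      exact nm_sd_const45 hN _
    · simp only [h]
      exact h2 (by simpa using h)
  have b4 : D.RowPr i E (fun ω => if σ.exact && !σ.lin then D.Pc π q.ds σ.xs ω else 0) N := by
    by_cases h : (σ.exact && !σ.lin) = true
    · simp only [h, if_true]
      have h' : σ.exact = true ∧ σ.lin = false := by simpa using h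
      exact h4 h'.1 h'.2
    · simp only [h]
      exact nm_sd_const45 hN _
  have hall := nm_sd_map (nm_sd_pair (nm_sd_pair (nm_sd_pair b1 b2) h3) b4)
    (fun x : ((Option (D.Idx × SfRay) × NmNm) × NmNm) × ℤ => (((x.1.1.1, x.1.1.2), (x.1.2.kb, x.2, x.1.2.t), (x.1.2.R, x.1.2.k, if σ.lin then x.1.2.L else 0)) : NmZv D.Idx))
  have e4 : N ^ 4 = N * N * N * N := by ring
  rw [e4]
  have ef : D.side π q σ a = fun ω => (((if σ.exact then some (D.y0 ω) else none, if σ.exact then nmZero else D.nm π q σ.A σ.V ω),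
      ((D.nm π q a v' ω).kb, (if σ.exact && !σ.lin then D.Pc π q.ds σ.xs ω else 0), (D.nm π q a v' ω).t),
      ((D.nm π q a v' ω).R, (D.nm π q a v' ω).k, if σ.lin then (D.nm π q a v' ω).L else 0)) : NmZv D.Idx) := by
    funext ω
    rw [nm_sd_eq D π q σ a v' hl ω]
    rfl
  rw [ef]
  exact hall

/-- coarse sides: the same for labels -/
theorem nm_sd_labs (π : SfPar) (q : NmQ) (σ : NmSd) (a v' : ℝ) (hl : σ.lin = true → q.l π a v' = π.b1 a) (hσ : σ.exact = false) {E : D.Row 1 → Prop}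
    {N : ℝ} (hN : 1 ≤ N) (h2 : D.LabPr i E (D.nm π q σ.A σ.V) (fun _ => ()) N) (h3 : D.LabPr i E (D.nm π q a v') (fun _ => ()) N) :
    D.LabPr i E (D.side π q σ a) (fun _ => ()) (N ^ 2) := by
  have hall := nm_sd_lmap (nm_sd_lpair h2 h3)
    (fun x : NmNm × NmNm => (((none, x.1), (x.2.kb, 0, x.2.t), (x.2.R, x.2.k, if σ.lin then x.2.L else 0)) : NmZv D.Idx))
  have e2 : N ^ 2 = N * N := by ring
  rw [e2]
  have ef : D.side π q σ a = fun ω => (((none, D.nm π q σ.A σ.V ω),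
      ((D.nm π q a v' ω).kb, 0, (D.nm π q a v' ω).t),
      ((D.nm π q a v' ω).R, (D.nm π q a v' ω).k, if σ.lin then (D.nm π q a v' ω).L else 0)) : NmZv D.Idx) := by
    funext ω
    rw [nm_sd_eq D π q σ a v' hl ω]
    unfold nmSideF
    simp only [hσ]
    rfl
  rw [ef]
  exact hall

theorem nm_sd_kit_eqns_cite : True := by
  have := @nmSideF.eq_1
  trivial

end

end Claimed.Agent.R256
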